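import Vale.Agent.Lib.P174.PGroup

/-!
Infinite systems over a group: if every finite subsystem has independent rows mod `p`, the
coefficient group injects into the quotient.
-/

namespace Vale.Agent.Lib.P174

open Monoid

universe u v w

theorem rank_eq_of_rows_indep {R : Type*} [Field R] {m n : ℕ} (A : Matrix (Fin m) (Fin n) R)
    (h : ∀ c : Fin m → R, (∀ j, ∑ i, c i * A i j = 0) → c = 0) : A.rank = m := by
  have hli : LinearIndependent R A.row := by
    rw [Fintype.linearIndependent_iff]
    intro g hg i
    have := h g (fun j => by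
      have h1 := congrFun hg j
      simpa [Matrix.row] using h1)
    exact congrFun this i
  simpa using hli.rank_matrix

theorem rows_indep_of_rank {R : Type*} [Field R] {m n : ℕ} (A : Matrix (Fin m) (Fin n) R)
    (h : A.rank = m) (c : Fin m → R) (hc : ∀ j, ∑ i, c i * A i j = 0) : c = 0 := by
  have hli : LinearIndependent R A.row := by
    rw [linearIndependent_iff_card_eq_finrank_span]
    rw [Matrix.rank_eq_finrank_span_row] at h
    rw [Fintype.card_fin]
    exact h.symm
  rw [Fintype.linearIndependent_iff] at hli
  funext i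
  refine hli c ?_ i
  funext j
  simpa [Matrix.row] using hc j

theorem mulVec_surj_of_rank {R : Type*} [Field R] {m n : ℕ} (A : Matrix (Fin m) (Fin n) R)
    (h : A.rank = m) (c : Fin m → R) : ∃ e : Fin n → R, ∀ i, ∑ j, A i j * e j = c i := by
  have htop : LinearMap.range A.mulVecLin = ⊤ := by
    apply Submodule.eq_top_of_finrank_eq
    rw [Module.finrank_fin_fun]
    exact h
  have hc : c ∈ LinearMap.range A.mulVecLin := by rw [htop]; trivial
  obtain ⟨e, he⟩ := hc
  refine ⟨e, fun i => ?_⟩
  have h2 := congrFun he i
  simpa [Matrix.mulVec, dotProduct] using h2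

section Finite

variable {A : Type*} [Group A] {I : Type*}

/-- An element of a normal closure lies in the normal closure of finitely many generators. -/
theorem exists_finset_normalClosure (V : I → A) (x : A)
    (hx : x ∈ Subgroup.normalClosure (Set.range V)) :
    ∃ I₀ : Finset I, x ∈ Subgroup.normalClosure (V '' (I₀ : Set I)) := by
  classical
  unfold Subgroup.normalClosure at hx
  induction hx using Subgroup.closure_induction with
  | mem y hy =>
    rw [Group.mem_conjugatesOfSet_iff] at hy
    obtain ⟨a, ⟨k, rfl⟩, ha⟩ := hy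
    refine ⟨{k}, ?_⟩
    apply Subgroup.conjugatesOfSet_subset_normalClosure
    rw [Group.mem_conjugatesOfSet_iff]
    exact ⟨V k, ⟨k, by simp, rfl⟩, ha⟩
  | one => exact ⟨∅, Subgroup.one_mem _⟩
  | mul y z _ _ hy hz =>
    obtain ⟨I₁, h₁⟩ := hy
    obtain ⟨I₂, h₂⟩ := hz
    refine ⟨I₁ ∪ I₂, Subgroup.mul_mem _ ?_ ?_⟩
    · refine Subgroup.normalClosure_mono ?_ h₁
      apply Set.image_mono
      simp
    · refine Subgroup.normalClosure_mono ?_ h₂
      apply Set.image_mono
      simp
  | inv y _ hy =>
    obtain ⟨I₁, h₁⟩ := hy
    exact ⟨I₁, Subgroup.inv_mem _ h₁⟩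

end Finite

/-- The compactness argument: an infinite system with independent rows mod `p` over a group in
which all finite such systems are solvable. -/
theorem infinite_system {p : ℕ} [Fact p.Prime] {N : Type u} [Group N] (hN : HowieModGroup p N)
    {I : Type v} {Y : Type w} (V : I → Monoid.Coprod N (FreeGroup Y))
    (hindep : ∀ c : I →₀ ZMod p,
      (c.sum fun k a => a • Multiplicative.toAdd (expHom (ZMod p) N Y (V k))) = 0 → c = 0)
    (n₀ : N) (h : (Coprod.inl n₀ : Monoid.Coprod N (FreeGroup Y)) ∈
      Subgroup.normalClosure (Set.range V)) : n₀ = 1 := by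
  classical
  obtain ⟨I₀, hI₀⟩ := exists_finset_normalClosure V _ h
  set E : I → (Y →₀ ZMod p) := fun k => Multiplicative.toAdd (expHom (ZMod p) N Y (V k)) with hE
  let J₀ : Finset Y := I₀.biUnion fun k => (E k).support
  let eI := I₀.equivFin
  let eJ := J₀.equivFin
  let ρ : Monoid.Coprod N (FreeGroup Y) →* Monoid.Coprod N (FreeGroup (Fin J₀.card)) :=
    Coprod.lift Coprod.inl (Coprod.inr.comp (FreeGroup.lift fun y =>
      if hy : y ∈ J₀ then FreeGroup.of (eJ ⟨y, hy⟩) else 1))
  have hρexp : ∀ (u : Monoid.Coprod N (FreeGroup Y)) (j : Fin J₀.card),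
      Multiplicative.toAdd (expHom (ZMod p) N (Fin J₀.card) (ρ u)) j =
        Multiplicative.toAdd (expHom (ZMod p) N Y u) (eJ.symm j).1 := by
    intro u
    refine coprod_free_induction (P := fun u => ∀ j : Fin J₀.card,
      Multiplicative.toAdd (expHom (ZMod p) N (Fin J₀.card) (ρ u)) j =
        Multiplicative.toAdd (expHom (ZMod p) N Y u) (eJ.symm j).1) ?_ ?_ ?_ ?_ u
    · intro g j
      simp [ρ]
    · intro y j
      by_cases hy : y ∈ J₀
      · have h1 : ρ (Coprod.inr (FreeGroup.of y)) = Coprod.inr (FreeGroup.of (eJ ⟨y, hy⟩)) := by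
          simp [ρ, hy]
        rw [h1]
        simp only [expHom_of, toAdd_ofAdd, Finsupp.single_apply]
        by_cases hj : eJ ⟨y, hy⟩ = j
        · subst hj
          simp
        · have h2 : y ≠ (eJ.symm j).1 := by
            intro h3
            apply hj
            have h4 : (⟨y, hy⟩ : J₀) = eJ.symm j := Subtype.ext h3
            rw [h4]
            simp
          simp [hj, h2]
      · have h1 : ρ (Coprod.inr (FreeGroup.of y)) = 1 := by
          simp [ρ, hy]
        rw [h1]
        have h2 : y ≠ (eJ.symm j).1 := by
          intro h3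
          apply hy
          rw [h3]
          exact (eJ.symm j).2
        simp [h2]
    · intro u v hu hv j
      simp only [map_mul, toAdd_mul, Finsupp.add_apply, hu j, hv j]
    · intro u hu j
      simp only [map_inv, toAdd_inv, Finsupp.neg_apply, hu j]
  let w' : Fin I₀.card → Monoid.Coprod N (FreeGroup (Fin J₀.card)) :=
    fun i => ρ (V (eI.symm i).1)
  have hrank : ((exponentMatrix w').map (Int.cast : ℤ → ZMod p)).rank = I₀.card := by
    apply rank_eq_of_rows_indep
    intro c hc
    -- extend `c` to a finitely supported function on `I`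
    let ctil : I →₀ ZMod p := Finsupp.onFinset I₀
      (fun k => if hk : k ∈ I₀ then c (eI ⟨k, hk⟩) else 0)
      (by
        intro k hk
        by_contra hk2
        simp [hk2] at hk)
    have hctil : ∀ i, ctil (eI.symm i).1 = c i := by
      intro i
      simp [ctil]
    have hsum : (ctil.sum fun k a => a • E k) = 0 := by
      rw [Finsupp.sum_of_support_subset ctil (s := I₀) Finsupp.support_onFinset_subset _
        (by simp)]
      ext y
      rw [Finsupp.finsetSum_apply]
      rw [← Finset.sum_coe_sort I₀]
      rw [Fintype.sum_equiv eI (fun k : I₀ => (ctil k.1 • E k.1) y)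
        (fun i => c i * (E (eI.symm i).1) y)
        (by
          intro k
          have h1 := hctil (eI k)
          simp only [Equiv.symm_apply_apply] at h1
          simp [h1])]
      by_cases hy : y ∈ J₀
      · have h1 := hc (eJ ⟨y, hy⟩)
        rw [Finsupp.zero_apply, ← h1]
        refine Finset.sum_congr rfl fun i _ => ?_
        congr 1
        simp only [Matrix.map_apply, exponentMatrix, Matrix.of_apply]
        rw [← expHom_cast, hρexp]
        simp [E]
      · refine Finset.sum_eq_zero fun i _ => ?_
        have h2 : (E (eI.symm i).1) y = 0 := by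
          by_contra h3
          apply hy
          exact Finset.mem_biUnion.2 ⟨_, (eI.symm i).2, Finsupp.mem_support_iff.2 h3⟩
        rw [h2, mul_zero]
    have h0 := hindep ctil hsum
    funext i
    rw [← hctil i, h0]
    rfl
  have hsolv := (solvableOver_iff w').1 (hN _ _ w' hrank)
  apply hsolv
  have hle : Subgroup.normalClosure (V '' (I₀ : Set I)) ≤
      (Subgroup.normalClosure (Set.range w')).comap ρ := by
    have : ((Subgroup.normalClosure (Set.range w')).comap ρ).Normal :=
      Subgroup.Normal.comap inferInstance ρ
    apply Subgroup.normalClosure_le_normal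
    rintro _ ⟨k, hk, rfl⟩
    apply Subgroup.subset_normalClosure
    refine ⟨eI ⟨k, hk⟩, ?_⟩
    simp [w']
  have h5 := hle hI₀
  simpa [ρ] using h5

end Vale.Agent.Lib.P174
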