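import Mathlib

/-!
Systems of equations over groups: definitions.
-/

namespace Vale.Agent.Lib.P174

open Monoid

universe u v

/-- The exponent-sum homomorphism `G ∗ F(J) → R^(J)`, killing `G` and sending `x_j` to `e_j`,
with coefficients in an abelian group with one `R`. -/
noncomputable def expHom (R : Type) [Ring R] (G : Type u) [Group G] (J : Type v) :
    Monoid.Coprod G (FreeGroup J) →* Multiplicative (J →₀ R) :=
  Coprod.lift 1 (FreeGroup.lift fun j => Multiplicative.ofAdd (Finsupp.single j 1))

/-- The exponent-sum matrix of a finite system `w_1, ..., w_m` in `G ∗ F_n`: the entry `(i, j)` is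
the exponent sum of `x_j` in `w_i`. -/
noncomputable def exponentMatrix {G : Type u} [Group G] {m n : ℕ}
    (w : Fin m → Monoid.Coprod G (FreeGroup (Fin n))) : Matrix (Fin m) (Fin n) ℤ :=
  Matrix.of fun i j => Multiplicative.toAdd (expHom ℤ G (Fin n) (w i)) j

/-- The system `w` is solvable over `G`: the canonical map from `G` to
`(G ∗ F_n) / ⟨⟨w_1, ..., w_m⟩⟩` is injective. -/
def SolvableOver {G : Type u} [Group G] {m n : ℕ}
    (w : Fin m → Monoid.Coprod G (FreeGroup (Fin n))) : Prop :=
  Function.Injective fun g : G =>
    (QuotientGroup.mk (Coprod.inl g) :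
      Monoid.Coprod G (FreeGroup (Fin n)) ⧸ Subgroup.normalClosure (Set.range w))

/-- Howie's conjecture holds for `G`: every finite system over `G` whose exponent-sum matrix has
rank `m` over the rationals is solvable over `G`. -/
def HowieGroup (G : Type u) [Group G] : Prop :=
  ∀ (m n : ℕ) (w : Fin m → Monoid.Coprod G (FreeGroup (Fin n))),
    ((exponentMatrix w).map (Int.cast : ℤ → ℚ)).rank = m → SolvableOver w

/-- Every finite system over `G` whose exponent-sum matrix has rank `m` modulo `p` is solvable
over `G`. -/
def HowieModGroup (p : ℕ) (G : Type u) [Group G] : Prop :=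
  ∀ (m n : ℕ) (w : Fin m → Monoid.Coprod G (FreeGroup (Fin n))),
    ((exponentMatrix w).map (Int.cast : ℤ → ZMod p)).rank = m → SolvableOver w

/-- `Q` is residually a finite `p`-group: every nontrivial element lies outside some normal
subgroup of `p`-power index. -/
def ResiduallyP (p : ℕ) (Q : Type u) [Group Q] : Prop :=
  ∀ g : Q, g ≠ 1 → ∃ K : Subgroup Q, K.Normal ∧ (∃ k : ℕ, K.index = p ^ k) ∧ g ∉ K

/-- Evaluation of words: the homomorphism `G ∗ F(J) → T` extending `φ : G → T`, `x_j ↦ b j`. -/
noncomputable def evalHom {G : Type u} [Group G] {T : Type v} [Group T] {J : Type*}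
    (φ : G →* T) (b : J → T) : Monoid.Coprod G (FreeGroup J) →* T :=
  Coprod.lift φ (FreeGroup.lift b)

section Induction

variable {G : Type u} [Group G] {J : Type v}

/-- Induction principle for `G ∗ F(J)`. -/
theorem coprod_free_induction {P : Monoid.Coprod G (FreeGroup J) → Prop}
    (hinl : ∀ g, P (Coprod.inl g))
    (hof : ∀ j, P (Coprod.inr (FreeGroup.of j)))
    (hmul : ∀ u v, P u → P v → P (u * v))
    (hinv : ∀ u, P u → P u⁻¹) : ∀ u, P u := by
  have hone : P 1 := by simpa using hinl 1
  intro u
  refine Coprod.induction_on u hinl ?_ hmul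
  intro v
  refine FreeGroup.induction_on v ?_ ?_ ?_ ?_
  · simpa using hone
  · intro j; exact hof j
  · intro j hj
    simpa using hinv _ hj
  · intro a b ha hb
    simpa using hmul _ _ ha hb

@[simp] theorem expHom_inl (R : Type) [Ring R] (g : G) :
    expHom R G J (Coprod.inl g) = 1 := by
  simp [expHom]

@[simp] theorem expHom_of (R : Type) [Ring R] (j : J) :
    expHom R G J (Coprod.inr (FreeGroup.of j)) = Multiplicative.ofAdd (Finsupp.single j 1) := by
  simp [expHom]

/-- The exponent sums over a ring are the casts of the integer exponent sums. -/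
theorem expHom_cast (R : Type) [Ring R] (u : Monoid.Coprod G (FreeGroup J)) (j : J) :
    Multiplicative.toAdd (expHom R G J u) j =
      ((Multiplicative.toAdd (expHom ℤ G J u) j : ℤ) : R) := by
  refine coprod_free_induction (P := fun u => ∀ j : J, Multiplicative.toAdd (expHom R G J u) j =
      ((Multiplicative.toAdd (expHom ℤ G J u) j : ℤ) : R)) ?_ ?_ ?_ ?_ u j
  · intro g j; simp
  · intro i j
    classical
    simp only [expHom_of, toAdd_ofAdd, Finsupp.single_apply]
    split_ifs <;> simp
  · intro u v hu hv j
    simp only [map_mul, toAdd_mul, Finsupp.add_apply, hu j, hv j, Int.cast_add]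
  · intro u hu j
    simp only [map_inv, toAdd_inv, Finsupp.neg_apply, hu j, Int.cast_neg]

@[simp] theorem evalHom_inl {T : Type*} [Group T] (φ : G →* T) (b : J → T) (g : G) :
    evalHom φ b (Coprod.inl g) = φ g := by simp [evalHom]

@[simp] theorem evalHom_of {T : Type*} [Group T] (φ : G →* T) (b : J → T) (j : J) :
    evalHom φ b (Coprod.inr (FreeGroup.of j)) = b j := by simp [evalHom]

theorem comp_evalHom {T T' : Type*} [Group T] [Group T'] (f : T →* T') (φ : G →* T) (b : J → T)
    (u : Monoid.Coprod G (FreeGroup J)) :
    f (evalHom φ b u) = evalHom (f.comp φ) (f ∘ b) u := by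
  refine coprod_free_induction (P := fun u => f (evalHom φ b u) = evalHom (f.comp φ) (f ∘ b) u)
    ?_ ?_ ?_ ?_ u
  · intro g; simp
  · intro j; simp
  · intro u v hu hv; simp [hu, hv]
  · intro u hu; simp [hu]

/-- Solvability as a statement about the normal closure. -/
theorem solvableOver_iff {m n : ℕ} (w : Fin m → Monoid.Coprod G (FreeGroup (Fin n))) :
    SolvableOver w ↔
      ∀ g : G, (Coprod.inl g : Monoid.Coprod G (FreeGroup (Fin n))) ∈
        Subgroup.normalClosure (Set.range w) → g = 1 := by
  constructor
  · intro h g hg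
    apply h
    show (QuotientGroup.mk _ : _ ⧸ Subgroup.normalClosure (Set.range w)) =
      QuotientGroup.mk _
    rw [map_one]
    exact (QuotientGroup.eq_one_iff _).2 hg
  · intro h a b hab
    have h1 := QuotientGroup.eq.1 hab
    have h2 : a⁻¹ * b = 1 := by
      apply h
      simpa using h1
    exact inv_mul_eq_one.1 h2

end Induction

end Vale.Agent.Lib.P174
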