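import Vale.Agent.Lib.P174.Main

/-!
From mod `p` statements to rational statements; abelian groups.
-/

namespace Vale.Agent.Lib.P174

open Monoid

universe u

section Rank

/-- Full row rank mod `p` implies full row rank over the rationals. -/
theorem rank_rat_of_rank_mod (p : ℕ) [hp : Fact p.Prime] {m n : ℕ} (A : Matrix (Fin m) (Fin n) ℤ)
    (h : (A.map (Int.cast : ℤ → ZMod p)).rank = m) :
    (A.map (Int.cast : ℤ → ℚ)).rank = m := by
  apply rank_eq_of_rows_indep
  intro c hc
  -- integer rows are independent
  have hint : ∀ z : Fin m → ℤ, (∀ j, ∑ i, z i * A i j = 0) → z = 0 := by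
    intro z hz
    have hdiv : ∀ k : ℕ, ∀ i, ((p : ℤ) ^ k) ∣ z i := by
      intro k
      induction k with
      | zero => intro i; simp
      | succ k ih =>
        choose y hy using ih
        have hp0 : ((p : ℤ) ^ k) ≠ 0 := pow_ne_zero _ (by exact_mod_cast hp.out.ne_zero)
        have hy0 : ∀ j, ∑ i, y i * A i j = 0 := by
          intro j
          have h1 := hz j
          simp_rw [hy, mul_assoc] at h1
          rw [← Finset.mul_sum] at h1
          exact (mul_eq_zero.1 h1).resolve_left hp0
        have h2 : (fun i => ((y i : ℤ) : ZMod p)) = 0 := by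
          apply rows_indep_of_rank _ h
          intro j
          have h3 := congrArg (Int.cast : ℤ → ZMod p) (hy0 j)
          push_cast at h3
          simpa using h3
        intro i
        have h4 : ((y i : ℤ) : ZMod p) = 0 := congrFun h2 i
        rw [ZMod.intCast_zmod_eq_zero_iff_dvd] at h4
        obtain ⟨e, he⟩ := h4
        exact ⟨e, by rw [hy i, he, pow_succ, mul_assoc]⟩
    funext i
    have h1 := hdiv (z i).natAbs i
    have h2 : (z i).natAbs < p ^ (z i).natAbs := Nat.lt_pow_self hp.out.one_lt
    apply Int.eq_zero_of_abs_lt_dvd h1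
    have h3 : |z i| = ((z i).natAbs : ℤ) := Int.abs_eq_natAbs _
    rw [h3]
    exact_mod_cast h2
  -- clear denominators
  obtain ⟨b, hb⟩ := IsLocalization.exist_integer_multiples_of_finite (nonZeroDivisors ℤ) c
  choose z hz using hb
  have hz0 : z = 0 := by
    apply hint
    intro j
    have h1 := hc j
    have h2 : ((∑ i, z i * A i j : ℤ) : ℚ) = (b : ℤ) * ∑ i, c i * ((A i j : ℤ) : ℚ) := by
      push_cast
      rw [Finset.mul_sum]
      refine Finset.sum_congr rfl fun i _ => ?_
      have h3 : ((z i : ℤ) : ℚ) = (b : ℤ) * c i := by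
        have := hz i
        simpa [Submonoid.smul_def] using this
      rw [h3, mul_assoc]
    have h4 : ∑ i, c i * ((A i j : ℤ) : ℚ) = 0 := by simpa using h1
    rw [h4, mul_zero] at h2
    exact_mod_cast h2
  funext i
  have h1 := hz i
  have hb0 : ((b : ℤ) : ℚ) ≠ 0 := by
    have := nonZeroDivisors.coe_ne_zero b
    exact_mod_cast this
  rw [hz0] at h1
  have h2 : ((b : ℤ) : ℚ) * c i = 0 := by
    simpa [Submonoid.smul_def] using h1.symm
  simpa [hb0] using h2

/-- A nonzero integer `D` such that full row rank over the rationals passes to every prime not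
dividing `D`. -/
theorem exists_det_of_rank_rat {m n : ℕ} (A : Matrix (Fin m) (Fin n) ℤ)
    (h : (A.map (Int.cast : ℤ → ℚ)).rank = m) :
    ∃ D : ℤ, D ≠ 0 ∧ ∀ (p : ℕ) [Fact p.Prime], ¬ ((p : ℤ) ∣ D) →
      (A.map (Int.cast : ℤ → ZMod p)).rank = m := by
  classical
  refine ⟨(A * A.transpose).det, ?_, ?_⟩
  · have h1 : ((A.map (Int.cast : ℤ → ℚ)) * (A.map (Int.cast : ℤ → ℚ)).transpose).rank = m := by
      rw [Matrix.rank_self_mul_transpose, h]
    have h2 : Function.Surjective
        ((A.map (Int.cast : ℤ → ℚ)) * (A.map (Int.cast : ℤ → ℚ)).transpose).mulVec := by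
      intro c
      obtain ⟨e, he⟩ := mulVec_surj_of_rank _ h1 c
      exact ⟨e, by funext i; simpa [Matrix.mulVec, dotProduct] using he i⟩
    have h3 := Matrix.mulVec_surjective_iff_isUnit.1 h2
    have h4 := (Matrix.isUnit_iff_isUnit_det _).1 h3
    have h5 : ((A.map (Int.cast : ℤ → ℚ)) * (A.map (Int.cast : ℤ → ℚ)).transpose).det =
        (((A * A.transpose).det : ℤ) : ℚ) := by
      have := (Int.castRingHom ℚ).map_det (A * A.transpose)
      simp only [eq_intCast] at this
      rw [this]
      congr 1
      ext i j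
      simp [Matrix.mul_apply]
    rw [h5] at h4
    intro h6
    rw [h6] at h4
    simp at h4
  · intro p hp hnd
    apply rank_eq_of_rows_indep
    intro c hc
    have h0 : ((A.map (Int.cast : ℤ → ZMod p)) * (A.map (Int.cast : ℤ → ZMod p)).transpose).det =
        (((A * A.transpose).det : ℤ) : ZMod p) := by
      have := (Int.castRingHom (ZMod p)).map_det (A * A.transpose)
      simp only [eq_intCast] at this
      rw [this]
      congr 1
      ext i j
      simp [Matrix.mul_apply]
    have hdet : ((A.map (Int.cast : ℤ → ZMod p)) *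
        (A.map (Int.cast : ℤ → ZMod p)).transpose).det ≠ 0 := by
      rw [h0]
      intro h1
      rw [ZMod.intCast_zmod_eq_zero_iff_dvd] at h1
      exact hnd h1
    apply Matrix.eq_zero_of_vecMul_eq_zero hdet
    rw [← Matrix.vecMul_vecMul]
    have h1 : Matrix.vecMul c (A.map (Int.cast : ℤ → ZMod p)) = 0 := by
      funext j
      simpa [Matrix.vecMul, dotProduct] using hc j
    rw [h1, Matrix.zero_vecMul]

end Rank

section Global

theorem howieMod_of_howie (p : ℕ) [Fact p.Prime] {G : Type u} [Group G] (h : HowieGroup G) :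
    HowieModGroup p G := fun m n w hr => h m n w (rank_rat_of_rank_mod p _ hr)

/-- Closure of the class of groups satisfying Howie's conjecture under extensions whose quotient
is residually a finite `p`-group for infinitely many primes `p`. -/
theorem howie_of_residually {G : Type u} [Group G] (N : Subgroup G) [N.Normal]
    (hN : HowieGroup N)
    (hQ : ∀ B : ℕ, ∃ p : ℕ, B < p ∧ p.Prime ∧ ResiduallyP p (G ⧸ N)) : HowieGroup G := by
  intro m n w hr
  obtain ⟨D, hD0, hD⟩ := exists_det_of_rank_rat _ hr
  obtain ⟨p, hpB, hpp, hres⟩ := hQ D.natAbs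
  have : Fact p.Prime := ⟨hpp⟩
  have hnd : ¬ ((p : ℤ) ∣ D) := by
    intro hdvd
    have h1 : p ∣ D.natAbs := Int.natCast_dvd.1 hdvd
    have h2 : 0 < D.natAbs := Int.natAbs_pos.2 hD0
    have h3 := Nat.le_of_dvd h2 h1
    omega
  exact howieMod_of_residually p N (howieMod_of_howie p hN) hres m n w (hD p hnd)

/-- Howie's conjecture for abelian groups (an elementary base case). -/
theorem howie_comm (A : Type u) [CommGroup A] : HowieGroup A := by
  classical
  intro m n w hr
  rw [solvableOver_iff]
  intro a ha
  let ab : Monoid.Coprod A (FreeGroup (Fin n)) →* A × Multiplicative (Fin n →₀ ℤ) :=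
    MonoidHom.prod (Coprod.lift (MonoidHom.id A) 1) (expHom ℤ A (Fin n))
  let L : Subgroup (A × Multiplicative (Fin n →₀ ℤ)) := Subgroup.closure (Set.range fun i => ab (w i))
  have hL : L.Normal := inferInstance
  have hle : Subgroup.normalClosure (Set.range w) ≤ L.comap ab := by
    have : (L.comap ab).Normal := Subgroup.Normal.comap hL ab
    apply Subgroup.normalClosure_le_normal
    rintro _ ⟨i, rfl⟩
    exact Subgroup.subset_closure ⟨i, rfl⟩
  have h1 : ab (Coprod.inl a) ∈ L := hle ha
  have hform : ∀ x ∈ L, ∃ z : Fin m → ℤ, x = ∏ i, (ab (w i)) ^ z i := by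
    intro x hx
    induction hx using Subgroup.closure_induction with
    | mem y hy =>
      obtain ⟨i, rfl⟩ := hy
      refine ⟨Pi.single i 1, ?_⟩
      rw [Finset.prod_eq_single i]
      · simp
      · intro j _ hj
        simp [hj]
      · simp
    | one => exact ⟨0, by simp⟩
    | mul y₁ y₂ _ _ h₁ h₂ =>
      obtain ⟨z₁, rfl⟩ := h₁
      obtain ⟨z₂, rfl⟩ := h₂
      refine ⟨z₁ + z₂, ?_⟩
      rw [← Finset.prod_mul_distrib]
      refine Finset.prod_congr rfl fun i _ => ?_
      simp [zpow_add]
    | inv y _ h =>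
      obtain ⟨z, rfl⟩ := h
      refine ⟨-z, ?_⟩
      rw [← Finset.prod_inv_distrib]
      refine Finset.prod_congr rfl fun i _ => ?_
      simp
  obtain ⟨z, hz⟩ := hform _ h1
  -- second coordinate
  have hsecond : ∀ j, ∑ i, z i * exponentMatrix w i j = 0 := by
    intro j
    have h2 := congrArg Prod.snd hz
    have h3 : (ab (Coprod.inl a)).2 = 1 := by simp [ab]
    rw [h3] at h2
    have h4 : (∏ i, (ab (w i)) ^ z i).2 = ∏ i, ((ab (w i)).2) ^ z i := by
      rw [Prod.snd_prod]
      refine Finset.prod_congr rfl fun i _ => ?_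
      rfl
    rw [h4] at h2
    have h5 := congrArg (fun f : Multiplicative (Fin n →₀ ℤ) => Multiplicative.toAdd f j) h2
    simp only [toAdd_one, Finsupp.zero_apply, toAdd_prod, toAdd_zpow] at h5
    rw [Finsupp.finsetSum_apply] at h5
    simpa [ab, exponentMatrix, mul_comm] using h5.symm
  have hz0 : z = 0 := by
    have h6 : (fun i => ((z i : ℤ) : ℚ)) = 0 := by
      apply rows_indep_of_rank _ hr
      intro j
      have h7 := congrArg (Int.cast : ℤ → ℚ) (hsecond j)
      push_cast at h7
      simpa using h7
    funext i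
    have h8 : ((z i : ℤ) : ℚ) = 0 := congrFun h6 i
    exact_mod_cast h8
  have h9 := congrArg Prod.fst hz
  rw [hz0] at h9
  simpa [ab] using h9

end Global

end Vale.Agent.Lib.P174
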