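import Vale.Agent.Lib.P174.Wreath

/-!
The closure theorem: extensions with residually-`p` quotient.
-/

namespace Vale.Agent.Lib.P174

open Monoid

universe u

section Abstract

variable {G : Type u} [Group G] {N : Subgroup G} {Γ : Type u} [Group Γ]
  (π : G →* Γ) (hπ : ∀ g, π g = 1 ↔ g ∈ N)
  (t : Γ → G) (ht : ∀ r g, π (t (r * π g)) = π (t r) * π g)
  {m n : ℕ} (b : Fin n → Γ) (w : Fin m → Monoid.Coprod G (FreeGroup (Fin n)))
  (p : ℕ) [Fact p.Prime]

/-- Rows of the lifted infinite system are independent mod `p`, provided finite subsets of `Γ` are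
separated by homomorphisms to finite `p`-groups. -/
theorem lifted_rows_indep
    (hsep : ∀ S : Finset Γ, ∃ (T : Type u) (_ : Group T) (_ : Fintype T),
      IsPGroup p T ∧ ∃ τ : Γ →* T, Set.InjOn τ S)
    (hA : ∀ l : Fin m → ZMod p,
      (∀ j, ∑ i, l i * Multiplicative.toAdd (expHom (ZMod p) G (Fin n) (w i)) j = 0) → l = 0)
    (c : (Fin m × Γ) →₀ ZMod p)
    (hc : (c.sum fun k a => a • ee π hπ t ht b p (w k.1) k.2) = 0) : c = 0 := by
  classical
  by_contra hne
  obtain ⟨T, _, _, hT, τ, hτ⟩ := hsep (c.support.image Prod.snd)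
  let d : Fin m → Fin n → T → ZMod p := fun i j s => eeT π hπ t ht b p τ (w i) 1 (j, s)
  let c' : Fin m → T → ZMod p := fun i s =>
    ∑ k ∈ c.support, if k.1 = i ∧ τ k.2 = s then c k else 0
  -- push forward the relation
  have hpush : ∀ (j : Fin n) (s : T),
      ∑ k ∈ c.support, c k * d k.1 j ((τ k.2)⁻¹ * s) = 0 := by
    intro j s
    have h1 : (c.sum fun k a => a • eeT π hπ t ht b p τ (w k.1) k.2) = 0 := by
      have h2 := congrArg (Finsupp.lmapDomain (ZMod p) (ZMod p)
        (Prod.map (id : Fin n → Fin n) τ)) hc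
      rw [map_zero, map_finsuppSum] at h2
      rw [← h2]
      refine Finsupp.sum_congr fun k _ => ?_
      rw [map_smul]
      rfl
    have h3 := DFunLike.congr_fun h1 (j, s)
    rw [Finsupp.sum, Finsupp.finsetSum_apply, Finsupp.zero_apply] at h3
    rw [← h3]
    refine Finset.sum_congr rfl fun k _ => ?_
    rw [Finsupp.smul_apply, smul_eq_mul, eeT_translate]
  have hc' : c' = 0 := by
    apply rows_indep_pgroup hT d
    · intro l hl
      apply hA
      intro j
      rw [← hl j]
      refine Finset.sum_congr rfl fun i _ => ?_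
      congr 1
      exact (eeT_total π hπ t ht b p τ (w i) 1 j).symm
    · intro j s
      rw [← hpush j s]
      simp only [c', Finset.sum_mul]
      rw [Finset.sum_congr rfl (fun i _ => Finset.sum_comm), Finset.sum_comm]
      refine Finset.sum_congr rfl fun k _ => ?_
      rw [Finset.sum_eq_single k.1, Finset.sum_eq_single (τ k.2)]
      · simp
      · intro x _ hx
        simp [Ne.symm hx]
      · simp
      · intro i _ hi
        refine Finset.sum_eq_zero fun x _ => ?_
        simp [Ne.symm hi]
      · simp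
  apply hne
  ext k
  by_contra hk
  have hk' : k ∈ c.support := Finsupp.mem_support_iff.2 (by simpa using hk)
  apply hk
  have h1 := congrFun (congrFun hc' k.1) (τ k.2)
  simp only [c', Pi.zero_apply] at h1
  rw [Finset.sum_eq_single k] at h1
  · simpa using h1
  · intro k' hk'2 hne2
    rw [if_neg]
    rintro ⟨h3, h4⟩
    apply hne2
    have h5 : k'.2 = k.2 := hτ (by
      exact Finset.mem_coe.2 (Finset.mem_image_of_mem _ hk'2))
      (Finset.mem_coe.2 (Finset.mem_image_of_mem _ hk')) h4
    exact Prod.ext h3 h5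
  · intro h3
    exact absurd hk' h3

include hπ ht in
/-- The lifting theorem in its most general form: if the rows of the lifted infinite system are
independent mod `p` then the system is solvable. -/
theorem solvable_of_indep
    (hN : HowieModGroup p N)
    (hindep : ∀ c : (Fin m × Γ) →₀ ZMod p,
      (c.sum fun k a => a • ee π hπ t ht b p (w k.1) k.2) = 0 → c = 0)
    (hb : ∀ i, evalHom π b (w i) = 1) : SolvableOver w := by
  classical
  rw [solvableOver_iff]
  intro g₀ hg₀
  let V : Fin m × Γ → BaseA N n Γ := fun k => (Psi π hπ t ht b (w k.1)).left k.2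
  let R := Subgroup.normalClosure (Set.range V)
  let mk' : BaseA N n Γ →* BaseA N n Γ ⧸ R := QuotientGroup.mk' R
  let Φ := (wrMap (Γ := Γ) mk').comp (Psi π hπ t ht b)
  have hΦ : ∀ i, Φ (w i) = 1 := by
    intro i
    apply SemidirectProduct.ext
    · funext r
      show mk' ((Psi π hπ t ht b (w i)).left r) = 1
      apply (QuotientGroup.eq_one_iff _).2
      exact Subgroup.subset_normalClosure ⟨(i, r), rfl⟩
    · show (Psi π hπ t ht b (w i)).right = 1
      rw [Psi_right, hb]
  have hle : Subgroup.normalClosure (Set.range w) ≤ Φ.ker := by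
    apply Subgroup.normalClosure_le_normal
    rintro _ ⟨i, rfl⟩
    exact hΦ i
  have h1 : Φ (Coprod.inl g₀) = 1 := hle hg₀
  have h2 : π g₀ = 1 := by
    have := congrArg SemidirectProduct.right h1
    simpa [Φ, wrMap] using this
  have h3 : mk' ((Psi π hπ t ht b (Coprod.inl g₀)).left 1) = 1 := by
    have := congrFun (congrArg SemidirectProduct.left h1) 1
    simpa [Φ, wrMap] using this
  rw [Psi_inl_left] at h3
  have h4 : (Coprod.inl (coc π hπ t ht g₀ 1) : BaseA N n Γ) ∈ R :=
    (QuotientGroup.eq_one_iff _).1 h3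
  have h5 : coc π hπ t ht g₀ 1 = 1 := by
    refine infinite_system hN V ?_ _ h4
    intro c hc
    exact hindep c hc
  have h6 : t 1 * g₀ * (t (1 * π g₀))⁻¹ = 1 := congrArg Subtype.val h5
  rw [h2, mul_one] at h6
  have h7 : t 1 * g₀ = t 1 := by
    rwa [mul_inv_eq_one] at h6
  simpa using h7

include hπ ht in
/-- The abstract form of the lifting theorem. -/
theorem solvable_of_lift
    (hN : HowieModGroup p N)
    (hsep : ∀ S : Finset Γ, ∃ (T : Type u) (_ : Group T) (_ : Fintype T),
      IsPGroup p T ∧ ∃ τ : Γ →* T, Set.InjOn τ S)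
    (hA : ∀ l : Fin m → ZMod p,
      (∀ j, ∑ i, l i * Multiplicative.toAdd (expHom (ZMod p) G (Fin n) (w i)) j = 0) → l = 0)
    (hb : ∀ i, evalHom π b (w i) = 1) : SolvableOver w :=
  solvable_of_indep π hπ t ht b w p hN
    (fun c hc => lifted_rows_indep π hπ t ht b w p hsep hA c hc) hb

end Abstract

section Master

variable (p : ℕ) [hp : Fact p.Prime]

/-- Normal subgroups of `p`-power index. -/
def PIndex (Q : Type u) [Group Q] := {K : Subgroup Q // K.Normal ∧ ∃ k : ℕ, K.index = p ^ k}

instance {Q : Type u} [Group Q] (K : PIndex p Q) : K.1.Normal := K.2.1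

variable {Q : Type u} [Group Q]

theorem PIndex.finite (K : PIndex p Q) : Finite (Q ⧸ K.1) := by
  obtain ⟨k, hk⟩ := K.2.2
  have : K.1.FiniteIndex := ⟨by rw [hk]; exact pow_ne_zero _ hp.out.ne_zero⟩
  infer_instance

omit hp in
theorem PIndex.card (K : PIndex p Q) : ∃ k : ℕ, Nat.card (Q ⧸ K.1) = p ^ k := by
  obtain ⟨k, hk⟩ := K.2.2
  exact ⟨k, by rw [← hk]; rfl⟩

theorem PIndex.isPGroup (K : PIndex p Q) : IsPGroup p (Q ⧸ K.1) := by
  obtain ⟨k, hk⟩ := PIndex.card p K
  exact IsPGroup.of_card hk

/-- The Cartesian product of all finite `p`-quotients. -/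
abbrev ProdP (Q : Type u) [Group Q] := ∀ K : PIndex p Q, Q ⧸ K.1

theorem prodP_sep (S : Finset (ProdP p Q)) :
    ∃ (T : Type u) (_ : Group T) (_ : Fintype T),
      IsPGroup p T ∧ ∃ τ : ProdP p Q →* T, Set.InjOn τ S := by
  classical
  have hex : ∀ r s : ProdP p Q, r ≠ s → ∃ K : PIndex p Q, r K ≠ s K := by
    intro r s hrs
    by_contra h
    push Not at h
    exact hrs (funext h)
  let chooseK : ProdP p Q × ProdP p Q → Finset (PIndex p Q) := fun x =>
    if h : x.1 ≠ x.2 then {(hex x.1 x.2 h).choose} else ∅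
  let F : Finset (PIndex p Q) := (S ×ˢ S).biUnion chooseK
  let T := ∀ K : F, Q ⧸ K.1.1
  have : ∀ K : F, Finite (Q ⧸ K.1.1) := fun K => PIndex.finite p K.1
  have : Finite T := Pi.finite
  let fT : Fintype T := Fintype.ofFinite T
  let τ : ProdP p Q →* T := MonoidHom.pi fun K => Pi.evalMonoidHom _ K.1
  refine ⟨T, inferInstance, fT, ?_, τ, ?_⟩
  · have hcard : ∃ k : ℕ, Nat.card T = p ^ k := by
      choose e he using fun K : F => PIndex.card p K.1
      refine ⟨∑ K, e K, ?_⟩
      rw [Nat.card_pi, Finset.prod_congr rfl (fun K _ => he K), Finset.prod_pow_eq_pow_sum]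
    obtain ⟨k, hk⟩ := hcard
    exact IsPGroup.of_card hk
  · intro r hr s hs hrs
    by_contra hne
    have hmem : (hex r s hne).choose ∈ F := by
      refine Finset.mem_biUnion.2 ⟨(r, s), Finset.mem_product.2 ⟨hr, hs⟩, ?_⟩
      simp [chooseK, hne]
    have h1 := (hex r s hne).choose_spec
    apply h1
    exact congrFun hrs ⟨_, hmem⟩

/-- **Master theorem.** If all systems nonsingular mod `p` are solvable over `N`, and `G/N` is
residually a finite `p`-group, then all systems nonsingular mod `p` are solvable over `G`. -/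
theorem howieMod_of_residually {G : Type u} [Group G] (N : Subgroup G) [hNn : N.Normal]
    (hN : HowieModGroup p N) (hQ : ResiduallyP p (G ⧸ N)) : HowieModGroup p G := by
  classical
  intro m n w hrank
  let Q := G ⧸ N
  let π : G →* ProdP p Q := MonoidHom.pi fun K => (QuotientGroup.mk' K.1).comp (QuotientGroup.mk' N)
  have hπ : ∀ g, π g = 1 ↔ g ∈ N := by
    intro g
    constructor
    · intro h
      by_contra hg
      have hne : (QuotientGroup.mk g : Q) ≠ 1 := by
        intro h1
        exact hg ((QuotientGroup.eq_one_iff g).1 h1)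
      obtain ⟨K, hKn, hKi, hK⟩ := hQ _ hne
      have h2 := congrFun h ⟨K, hKn, hKi⟩
      exact hK ((QuotientGroup.eq_one_iff _).1 h2)
    · intro hg
      funext K
      have h1 : (QuotientGroup.mk g : Q) = 1 := (QuotientGroup.eq_one_iff g).2 hg
      show (QuotientGroup.mk' K.1) (QuotientGroup.mk g : Q) = 1
      rw [h1, map_one]
  obtain ⟨t, ht⟩ := exists_transversal π
  have hsurj : ∀ c : Fin m → ZMod p, ∃ e : Fin n → ZMod p,
      ∀ i, ∑ j, ((exponentMatrix w i j : ℤ) : ZMod p) * e j = c i := by
    intro c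
    obtain ⟨e, he⟩ := mulVec_surj_of_rank _ hrank c
    exact ⟨e, fun i => by simpa using he i⟩
  have hsol : ∀ K : PIndex p Q, ∃ bK : Fin n → Q ⧸ K.1, ∀ i,
      evalHom ((QuotientGroup.mk' K.1).comp (QuotientGroup.mk' N)) bK (w i) = 1 := by
    intro K
    have := PIndex.finite p K
    exact exists_solution_pgroup p w hsurj _ (Q ⧸ K.1) (PIndex.isPGroup p K) rfl _
  choose bK hbK using hsol
  let b : Fin n → ProdP p Q := fun j K => bK K j
  have hb : ∀ i, evalHom π b (w i) = 1 := by
    intro i
    funext K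
    have h1 := comp_evalHom (Pi.evalMonoidHom _ K) π b (w i)
    have h2 : (Pi.evalMonoidHom _ K).comp π =
        (QuotientGroup.mk' K.1).comp (QuotientGroup.mk' N) := rfl
    have h3 : (Pi.evalMonoidHom (fun K : PIndex p Q => Q ⧸ K.1) K) ∘ b = bK K := rfl
    rw [h2, h3, hbK K i] at h1
    exact h1
  refine solvable_of_lift π hπ t ht b w p hN (prodP_sep p) ?_ hb
  intro l hl
  apply rows_indep_of_rank _ hrank l
  intro j
  rw [← hl j]
  refine Finset.sum_congr rfl fun i _ => ?_
  congr 1
  rw [expHom_cast]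
  simp [exponentMatrix]

end Master

end Vale.Agent.Lib.P174
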