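import Vale.Agent.Lib.P174.Defs

/-!
Two facts about finite `p`-groups.

* A system whose exponent matrix has full row rank mod `p` has a solution inside every finite
  `p`-group containing the coefficients.
* Rows of a Fox-type Jacobian over `F_p[T]` are independent when the augmented matrix has
  independent rows (fixed points of a `p`-group acting on a kernel).
-/

namespace Vale.Agent.Lib.P174

open Monoid

universe u v

section Rows

variable {p : ℕ} [hp : Fact p.Prime] {T : Type u} [Group T] [Fintype T]

/-- Left translation action of `T` on coefficient vectors. -/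
def coefSMul {m : ℕ} (t : T) (c : Fin m → T → ZMod p) : Fin m → T → ZMod p :=
  fun i s => c i (t⁻¹ * s)

/-- The key independence lemma. Let `T` be a finite `p`-group and let `d i j` be elements of
`F_p[T]` such that the augmentation matrix has independent rows. Then the left translates of the
rows are linearly independent. -/
theorem rows_indep_pgroup (hT : IsPGroup p T) {m n : ℕ} (d : Fin m → Fin n → T → ZMod p)
    (hA : ∀ l : Fin m → ZMod p, (∀ j, ∑ i, l i * ∑ s, d i j s = 0) → l = 0)
    (c : Fin m → T → ZMod p)
    (h : ∀ j s, ∑ i, ∑ t, c i t * d i j (t⁻¹ * s) = 0) : c = 0 := by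
  classical
  -- the kernel as an additive subgroup
  let Ker : AddSubgroup (Fin m → T → ZMod p) :=
    { carrier := {c | ∀ j s, ∑ i, ∑ t, c i t * d i j (t⁻¹ * s) = 0}
      zero_mem' := by intro j s; simp
      add_mem' := by
        intro a b ha hb j s
        have h1 := ha j s
        have h2 := hb j s
        simp only [Pi.add_apply, add_mul, Finset.sum_add_distrib, h1, h2, add_zero]
      neg_mem' := by
        intro a ha j s
        have h1 := ha j s
        simp only [Pi.neg_apply, neg_mul, Finset.sum_neg_distrib, h1, neg_zero] }
  -- translation preserves the kernel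
  have hstable : ∀ (t₀ : T) (a : Fin m → T → ZMod p), a ∈ Ker → coefSMul t₀ a ∈ Ker := by
    intro t₀ a ha j s
    have h1 := ha j (t₀⁻¹ * s)
    rw [← h1]
    refine Finset.sum_congr rfl fun i _ => ?_
    refine Fintype.sum_equiv (Equiv.mulLeft t₀⁻¹) _ _ fun t => ?_
    simp only [coefSMul, Equiv.coe_mulLeft, mul_inv_rev, inv_inv, mul_assoc, mul_inv_cancel_left]
  let act : MulAction T Ker :=
    { smul := fun t a => ⟨coefSMul t a.1, hstable t a.1 a.2⟩
      one_smul := by
        intro a
        apply Subtype.ext
        funext i s
        show a.1 i ((1 : T)⁻¹ * s) = a.1 i s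
        simp
      mul_smul := by
        intro t₁ t₂ a
        apply Subtype.ext
        funext i s
        show a.1 i ((t₁ * t₂)⁻¹ * s) = a.1 i (t₂⁻¹ * (t₁⁻¹ * s))
        simp [mul_assoc] }
  by_contra hc
  have hcK : c ∈ Ker := h
  -- the kernel has order divisible by `p`
  have hdvd : p ∣ Nat.card Ker := by
    have hord : addOrderOf (⟨c, hcK⟩ : Ker) = p := by
      apply addOrderOf_eq_prime
      · apply Subtype.ext
        funext i s
        show (p • c) i s = 0
        simp
      · intro h0
        exact hc (congrArg Subtype.val h0)
    have h3 := addOrderOf_dvd_natCard (⟨c, hcK⟩ : Ker)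
    rwa [hord] at h3
  have hzero : (0 : Ker) ∈ MulAction.fixedPoints T Ker := by
    intro t
    apply Subtype.ext
    funext i s
    rfl
  obtain ⟨b, hb, hne⟩ := hT.exists_fixed_point_of_prime_dvd_card_of_fixed_point Ker hdvd hzero
  -- a fixed vector is constant in the second variable
  have hconst : ∀ i s, b.1 i s = b.1 i 1 := by
    intro i s
    have h1 : (s • b) = b := hb s
    have h2 := congrArg (fun a : Ker => a.1 i s) h1
    have h3 : ((s • b : Ker)).1 i s = b.1 i (s⁻¹ * s) := rfl
    rw [← h2, h3]
    simp
  have hl : (fun i => b.1 i 1) = 0 := by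
    apply hA
    intro j
    have h1 := b.2 j 1
    rw [← h1]
    refine Finset.sum_congr rfl fun i _ => ?_
    rw [Finset.mul_sum]
    refine Fintype.sum_equiv (Equiv.inv T) _ _ fun t => ?_
    simp only [Equiv.inv_apply, mul_one]
    rw [hconst i t⁻¹]
    simp
  apply hne
  apply Subtype.ext
  funext i s
  rw [hconst i s]
  have := congrFun hl i
  simpa using this.symm

end Rows

section Central

variable {G : Type u} [Group G] {T : Type v} [Group T]

/-- Multiplying the values of the unknowns by powers of a central element changes the value of a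
word by the corresponding power. -/
theorem evalHom_central {n : ℕ} (φ : G →* T) (b : Fin n → T) (z : T) (hz : ∀ t, z * t = t * z)
    (e : Fin n → ℤ) (u : Monoid.Coprod G (FreeGroup (Fin n))) :
    evalHom φ (fun j => b j * z ^ e j) u =
      evalHom φ b u * z ^ (∑ j, Multiplicative.toAdd (expHom ℤ G (Fin n) u) j * e j) := by
  have hcomm : ∀ (k : ℤ) (t : T), z ^ k * t = t * z ^ k := by
    intro k t
    have : Commute z t := hz t
    exact (this.zpow_left k)
  refine coprod_free_induction (P := fun u => evalHom φ (fun j => b j * z ^ e j) u =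
      evalHom φ b u * z ^ (∑ j, Multiplicative.toAdd (expHom ℤ G (Fin n) u) j * e j))
    ?_ ?_ ?_ ?_ u
  · intro g; simp
  · intro i
    classical
    simp only [evalHom_of, expHom_of, toAdd_ofAdd, Finsupp.single_apply]
    congr 2
    rw [Finset.sum_eq_single i]
    · simp
    · intro j _ hj
      simp [Ne.symm hj]
    · simp
  · intro u v hu hv
    simp only [map_mul, hu, hv, toAdd_mul, Finsupp.add_apply, add_mul, Finset.sum_add_distrib,
      zpow_add]
    rw [mul_assoc, mul_assoc, ← mul_assoc (z ^ _) (evalHom φ b v), hcomm, mul_assoc]
  · intro u hu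
    simp only [map_inv, hu, toAdd_inv, Finsupp.neg_apply, neg_mul, Finset.sum_neg_distrib,
      zpow_neg, mul_inv_rev]
    have h5 := hcomm (-(∑ j, Multiplicative.toAdd (expHom ℤ G (Fin n) u) j * e j))
      (evalHom φ b u)⁻¹
    simpa [zpow_neg] using h5

/-- A system whose exponent matrix is surjective mod `p` can be solved inside any finite `p`-group
receiving the coefficients. -/
theorem exists_solution_pgroup (p : ℕ) [hp : Fact p.Prime] {m n : ℕ}
    (w : Fin m → Monoid.Coprod G (FreeGroup (Fin n)))
    (hsurj : ∀ c : Fin m → ZMod p, ∃ e : Fin n → ZMod p,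
      ∀ i, ∑ j, ((exponentMatrix w i j : ℤ) : ZMod p) * e j = c i) :
    ∀ (k : ℕ) (T : Type v) [Group T] [Finite T], IsPGroup p T → Nat.card T = k →
      ∀ φ : G →* T, ∃ b : Fin n → T, ∀ i, evalHom φ b (w i) = 1 := by
  intro k
  induction k using Nat.strong_induction_on with
  | _ k ih =>
    intro T _ _ hT hk φ
    by_cases hnt : Nontrivial T
    · -- a central element of order p
      have hcen : Nontrivial (Subgroup.center T) := hT.center_nontrivial
      have hcenP : IsPGroup p (Subgroup.center T) := hT.to_subgroup _
      have hdvd : p ∣ Nat.card (Subgroup.center T) := by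
        obtain ⟨s, hs⟩ := IsPGroup.iff_card.1 hcenP
        have hne : Nat.card (Subgroup.center T) ≠ 1 := by
          intro h1
          have := (Nat.card_eq_one_iff_unique.1 h1).1
          exact not_subsingleton _ this
        rw [hs]
        refine dvd_pow_self p ?_
        rintro rfl
        exact hne (by simpa using hs)
      obtain ⟨z', hz'⟩ := exists_prime_orderOf_dvd_card' p hdvd
      let z : T := z'
      have hzord : orderOf z = p := by
        exact (Subgroup.orderOf_coe z').trans hz'
      have hzc : ∀ t : T, z * t = t * z := by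
        intro t
        exact (Subgroup.mem_center_iff.1 z'.2 t).symm
      let K : Subgroup T := Subgroup.zpowers z
      have hKn : K.Normal := by
        refine ⟨fun a ha t => ?_⟩
        obtain ⟨l, rfl⟩ := Subgroup.mem_zpowers_iff.1 ha
        have : Commute z t := hzc t
        have h2 : t * z ^ l * t⁻¹ = z ^ l := by
          rw [((this.zpow_left l).eq).symm]
          simp
        rw [h2]
        exact Subgroup.zpow_mem_zpowers z l
      have hKcard : Nat.card K = p := by
        rw [Nat.card_zpowers, hzord]
      have hcardlt : Nat.card (T ⧸ K) < k := by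
        have h1 : Nat.card T = Nat.card K * Nat.card (T ⧸ K) := by
          rw [mul_comm]
          exact (Subgroup.card_eq_card_quotient_mul_card_subgroup K)
        rw [hKcard] at h1
        have hpos : 0 < Nat.card (T ⧸ K) := Nat.card_pos
        have hp2 := hp.out.two_le
        rw [← hk, h1]
        nlinarith
      obtain ⟨bbar, hbbar⟩ := ih _ hcardlt (T ⧸ K) (hT.to_quotient K) rfl
        ((QuotientGroup.mk' K).comp φ)
      -- lift
      choose b0 hb0 using fun j => QuotientGroup.mk_surjective (bbar j)
      have hbb : (QuotientGroup.mk' K) ∘ b0 = bbar := by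
        funext j
        exact hb0 j
      have hmem : ∀ i, evalHom φ b0 (w i) ∈ K := by
        intro i
        have h1 := comp_evalHom (QuotientGroup.mk' K) φ b0 (w i)
        rw [hbb, hbbar i] at h1
        exact (QuotientGroup.eq_one_iff _).1 h1
      choose cc hcc using fun i => Subgroup.mem_zpowers_iff.1 (hmem i)
      obtain ⟨e, he⟩ := hsurj (fun i => -((cc i : ℤ) : ZMod p))
      refine ⟨fun j => b0 j * z ^ ((e j).val : ℤ), fun i => ?_⟩
      rw [evalHom_central φ b0 z hzc, ← hcc i, ← zpow_add]
      rw [← orderOf_dvd_iff_zpow_eq_one, hzord, ← ZMod.intCast_zmod_eq_zero_iff_dvd]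
      push_cast
      have h3 := he i
      have h4 : ∑ j, (((Multiplicative.toAdd (expHom ℤ G (Fin n) (w i)) j : ℤ) : ZMod p)) *
          (((e j).val : ZMod p)) = -((cc i : ℤ) : ZMod p) := by
        rw [← h3]
        refine Finset.sum_congr rfl fun j _ => ?_
        simp [exponentMatrix]
      rw [h4]
      ring
    · -- trivial group
      rw [not_nontrivial_iff_subsingleton] at hnt
      exact ⟨fun _ => 1, fun i => Subsingleton.elim _ _⟩

end Central

end Vale.Agent.Lib.P174
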