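import Vale.Agent.Lib.P174.Global

/-!
Single equations: the quotient only has to embed in a group with unique products in which the
reduced equation has a solution.
-/

namespace Vale.Agent.Lib.P174

open Monoid

universe u

section Single

variable {G : Type u} [Group G] {N : Subgroup G} {Γ : Type u} [Group Γ]
  (π : G →* Γ) (hπ : ∀ g, π g = 1 ↔ g ∈ N)
  (t : Γ → G) (ht : ∀ r g, π (t (r * π g)) = π (t r) * π g)
  {n : ℕ} (b : Fin n → Γ) (p : ℕ) [Fact p.Prime]

omit [Fact p.Prime] in
theorem eeT_id (u : Monoid.Coprod G (FreeGroup (Fin n))) (r : Γ) :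
    eeT π hπ t ht b p (MonoidHom.id Γ) u r = ee π hπ t ht b p u r := by
  simp [eeT, Finsupp.mapDomain_id]

omit [Fact p.Prime] in
theorem ee_translate (u : Monoid.Coprod G (FreeGroup (Fin n))) (r : Γ) (j : Fin n) (s : Γ) :
    ee π hπ t ht b p u r (j, s) = ee π hπ t ht b p u 1 (j, r⁻¹ * s) := by
  have h := eeT_translate π hπ t ht b p (MonoidHom.id Γ) u r j s
  simpa [eeT_id] using h

/-- If all coefficients of `x_j` in the Fox vector vanish, so does the exponent sum of `x_j`. -/
theorem expo_eq_zero_of_ee (u : Monoid.Coprod G (FreeGroup (Fin n))) (j : Fin n)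
    (h : ∀ s, ee π hπ t ht b p u 1 (j, s) = 0) :
    Multiplicative.toAdd (expHom (ZMod p) G (Fin n) u) j = 0 := by
  classical
  have h1 := eeT_total π hπ t ht b p (1 : Γ →* PUnit.{1}) u 1 j
  rw [← h1]
  refine Finset.sum_eq_zero fun s _ => ?_
  simp only [eeT, Finsupp.mapDomain, Finsupp.sum, Finsupp.finsetSum_apply]
  refine Finset.sum_eq_zero fun y hy => ?_
  rw [Finsupp.single_apply, if_neg]
  intro h2
  have h3 : y.1 = j := congrArg Prod.fst h2
  have h4 : ee π hπ t ht b p u 1 y ≠ 0 := Finsupp.mem_support_iff.1 hy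
  apply h4
  have h5 : y = (j, y.2) := Prod.ext h3 rfl
  rw [h5]
  exact h y.2

/-- Rows of a lifted single equation are independent when the group algebra of `Γ` has no zero
divisors. -/
theorem single_rows_indep [UniqueProds Γ] (w : Fin 1 → Monoid.Coprod G (FreeGroup (Fin n)))
    (j : Fin n) (hj : Multiplicative.toAdd (expHom (ZMod p) G (Fin n) (w 0)) j ≠ 0)
    (c : (Fin 1 × Γ) →₀ ZMod p)
    (hc : (c.sum fun k a => a • ee π hπ t ht b p (w k.1) k.2) = 0) : c = 0 := by
  classical
  have hinj : Function.Injective (Prod.snd : Fin 1 × Γ → Γ) := by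
    intro a a' h
    exact Prod.ext (Subsingleton.elim _ _) h
  let C : MonoidAlgebra (ZMod p) Γ := MonoidAlgebra.ofCoeff (Finsupp.mapDomain Prod.snd c)
  have hinj2 : Function.Injective (fun s : Γ => ((j, s) : Fin n × Γ)) := by
    intro a a' h
    exact congrArg Prod.snd h
  let D : MonoidAlgebra (ZMod p) Γ := MonoidAlgebra.ofCoeff
    (Finsupp.comapDomain (fun s : Γ => ((j, s) : Fin n × Γ)) (ee π hπ t ht b p (w 0) 1)
      hinj2.injOn)
  have hDcoeff : ∀ s, D.coeff s = ee π hπ t ht b p (w 0) 1 (j, s) := by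
    intro s
    rfl
  have hCD : C * D = 0 := by
    apply MonoidAlgebra.coeff_injective
    ext s
    rw [MonoidAlgebra.coeff_mul_apply_left]
    show (Finsupp.mapDomain Prod.snd c).sum _ = (0 : ZMod p)
    rw [Finsupp.sum_mapDomain_index (by intro a; simp) (by intro a x y; simp [add_mul])]
    have h1 := DFunLike.congr_fun hc (j, s)
    rw [Finsupp.sum, Finsupp.finsetSum_apply, Finsupp.zero_apply] at h1
    rw [Finsupp.sum, ← h1]
    refine Finset.sum_congr rfl fun k _ => ?_
    rw [Finsupp.smul_apply, smul_eq_mul, hDcoeff]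
    have h2 : k.1 = 0 := Subsingleton.elim _ _
    rw [h2, ee_translate π hπ t ht b p (w 0) k.2 j s]
  have hD : D ≠ 0 := by
    intro h0
    apply hj
    apply expo_eq_zero_of_ee π hπ t ht b p
    intro s
    rw [← hDcoeff, h0]
    rfl
  have hC : C = 0 := (mul_eq_zero.1 hCD).resolve_right hD
  have h3 : Finsupp.mapDomain Prod.snd c = 0 := congrArg MonoidAlgebra.coeff hC
  exact Finsupp.mapDomain_injective hinj (by rw [h3, Finsupp.mapDomain_zero])

end Single

/-- **Single equations.** Let `π : G → Γ` be a homomorphism with kernel `N` into a group with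
unique products. If `N` satisfies Howie's conjecture and the reduction of a single nonsingular
equation `w` over `G` has a solution in `Γ`, then `w` is solvable over `G`. -/
theorem single_equation {G Γ : Type u} [Group G] [Group Γ] [UniqueProds Γ] (N : Subgroup G)
    (π : G →* Γ) (hπ : ∀ g, π g = 1 ↔ g ∈ N) (hN : HowieGroup N) {n : ℕ}
    (w : Fin 1 → Monoid.Coprod G (FreeGroup (Fin n))) (b : Fin n → Γ)
    (hb : evalHom π b (w 0) = 1)
    (hr : ((exponentMatrix w).map (Int.cast : ℤ → ℚ)).rank = 1) : SolvableOver w := by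
  classical
  -- a nonzero exponent
  have hex : ∃ j, exponentMatrix w 0 j ≠ 0 := by
    by_contra h
    push Not at h
    have h0 : (fun _ : Fin 1 => (1 : ℚ)) = 0 := by
      apply rows_indep_of_rank _ hr
      intro j
      have h1 : (0 : Fin 1) = _ := Subsingleton.elim _ (0 : Fin 1)
      simp [Matrix.map_apply, h j]
    have := congrFun h0 0
    simp at this
  obtain ⟨j, hj⟩ := hex
  obtain ⟨p, hpB, hpp⟩ := Nat.exists_infinite_primes ((exponentMatrix w 0 j).natAbs + 1)
  have : Fact p.Prime := ⟨hpp⟩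
  have hjp : Multiplicative.toAdd (expHom (ZMod p) G (Fin n) (w 0)) j ≠ 0 := by
    rw [expHom_cast]
    intro h1
    rw [ZMod.intCast_zmod_eq_zero_iff_dvd] at h1
    have h2 : p ∣ (exponentMatrix w 0 j).natAbs := Int.natCast_dvd.1 h1
    have h3 : 0 < (exponentMatrix w 0 j).natAbs := Int.natAbs_pos.2 hj
    have h4 := Nat.le_of_dvd h3 h2
    omega
  obtain ⟨t, ht⟩ := exists_transversal π
  refine solvable_of_indep π hπ t ht b w p (howieMod_of_howie p hN) ?_ ?_
  · intro c hc
    exact single_rows_indep π hπ t ht b p w j hjp c hc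
  · intro i
    have h0 : i = 0 := Subsingleton.elim _ _
    rw [h0, hb]

end Vale.Agent.Lib.P174
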