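import Vale.Agent.Lib.P174.Compact

/-!
The Cartesian wreath product construction and the lifted (Fox Jacobian) system.
-/

namespace Vale.Agent.Lib.P174

open Monoid

universe u v

section WreathDefs

/-- Right translation action of `Γ` on the Cartesian power `Γ → A`. -/
def wrAction (A : Type*) (Γ : Type*) [Group A] [Group Γ] : Γ →* MulAut (Γ → A) where
  toFun γ :=
    { toFun := fun f r => f (r * γ)
      invFun := fun f r => f (r * γ⁻¹)
      left_inv := fun f => by funext r; simp
      right_inv := fun f => by funext r; simp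
      map_mul' := fun _ _ => rfl }
  map_one' := by
    ext f r
    simp
  map_mul' := fun γ δ => by
    ext f r
    simp [mul_assoc]

/-- The Cartesian wreath product `A ≀ Γ`. -/
abbrev Wr (A : Type*) (Γ : Type*) [Group A] [Group Γ] :=
  SemidirectProduct (Γ → A) Γ (wrAction A Γ)

@[simp] theorem wrAction_apply {A Γ : Type*} [Group A] [Group Γ] (γ : Γ) (f : Γ → A) (r : Γ) :
    wrAction A Γ γ f r = f (r * γ) := rfl

/-- Functoriality of the wreath product in the base group. -/
def wrMap {A B Γ : Type*} [Group A] [Group B] [Group Γ] (f : A →* B) : Wr A Γ →* Wr B Γ where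
  toFun x := ⟨fun r => f (x.left r), x.right⟩
  map_one' := by
    apply SemidirectProduct.ext
    · funext r; simp
    · rfl
  map_mul' := fun x y => by
    apply SemidirectProduct.ext
    · funext r; simp
    · rfl

/-- A transversal adapted to a homomorphism `π : G → Γ`. -/
theorem exists_transversal {G Γ : Type*} [Group G] [Group Γ] (π : G →* Γ) :
    ∃ t : Γ → G, ∀ r g, π (t (r * π g)) = π (t r) * π g := by
  classical
  have h : ∀ r : Γ, ∃ x : G, π x =
      ((QuotientGroup.mk r : Γ ⧸ π.range).out)⁻¹ * r := by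
    intro r
    obtain ⟨h, hh⟩ := QuotientGroup.mk_out_eq_mul π.range r
    rw [hh]
    obtain ⟨x, hx⟩ := h.2
    refine ⟨x⁻¹, ?_⟩
    simp [hx]
  choose t ht using h
  refine ⟨t, fun r g => ?_⟩
  have h1 : (QuotientGroup.mk (r * π g) : Γ ⧸ π.range) = QuotientGroup.mk r := by
    apply QuotientGroup.eq.2
    simp
  rw [ht, ht, h1, mul_assoc]

end WreathDefs

section Lift

variable {G : Type u} [Group G] {N : Subgroup G} {Γ : Type u} [Group Γ]
  (π : G →* Γ) (hπ : ∀ g, π g = 1 ↔ g ∈ N)
  (t : Γ → G) (ht : ∀ r g, π (t (r * π g)) = π (t r) * π g)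

include hπ ht in
theorem coc_mem (g : G) (r : Γ) : t r * g * (t (r * π g))⁻¹ ∈ N := by
  rw [← hπ]
  simp [ht]

/-- The cocycle of the Krasner-Kaloujnine embedding. -/
def coc (g : G) (r : Γ) : N := ⟨t r * g * (t (r * π g))⁻¹, coc_mem π hπ t ht g r⟩

theorem coc_mul (g h : G) (r : Γ) :
    coc π hπ t ht (g * h) r = coc π hπ t ht g r * coc π hπ t ht h (r * π g) := by
  apply Subtype.ext
  simp [coc, mul_assoc]

theorem coc_one (r : Γ) : coc π hπ t ht 1 r = 1 := by
  apply Subtype.ext
  simp [coc]

/-- The embedding of `G` into the wreath product. -/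
def wrG {A : Type*} [Group A] (ι : N →* A) : G →* Wr A Γ where
  toFun g := ⟨fun r => ι (coc π hπ t ht g r), π g⟩
  map_one' := by
    apply SemidirectProduct.ext
    · funext r
      simp [coc_one]
    · simp
  map_mul' := fun g h => by
    apply SemidirectProduct.ext
    · funext r
      simp [coc_mul]
    · simp

variable {n : ℕ} (b : Fin n → Γ)

/-- The base group of the free construction. -/
abbrev BaseA (N : Subgroup G) (n : ℕ) (Γ : Type u) := Monoid.Coprod N (FreeGroup (Fin n × Γ))

/-- The homomorphism from `G ∗ F_n` to the wreath product over the free construction. -/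
noncomputable def Psi : Monoid.Coprod G (FreeGroup (Fin n)) →* Wr (BaseA N n Γ) Γ :=
  Coprod.lift (wrG π hπ t ht Coprod.inl)
    (FreeGroup.lift fun j => ⟨fun r => Coprod.inr (FreeGroup.of (j, r)), b j⟩)

@[simp] theorem Psi_inl_left (g : G) (r : Γ) :
    (Psi π hπ t ht b (Coprod.inl g)).left r = Coprod.inl (coc π hπ t ht g r) := by
  simp [Psi, wrG]

@[simp] theorem Psi_inl_right (g : G) :
    (Psi π hπ t ht b (Coprod.inl g)).right = π g := by
  simp [Psi, wrG]

@[simp] theorem Psi_of_left (j : Fin n) (r : Γ) :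
    (Psi π hπ t ht b (Coprod.inr (FreeGroup.of j))).left r =
      Coprod.inr (FreeGroup.of (j, r)) := by
  simp [Psi]

@[simp] theorem Psi_of_right (j : Fin n) :
    (Psi π hπ t ht b (Coprod.inr (FreeGroup.of j))).right = b j := by
  simp [Psi]

theorem Psi_right (u : Monoid.Coprod G (FreeGroup (Fin n))) :
    (Psi π hπ t ht b u).right = evalHom π b u := by
  refine coprod_free_induction (P := fun u => (Psi π hπ t ht b u).right = evalHom π b u)
    ?_ ?_ ?_ ?_ u
  · intro g; simp
  · intro j; simp
  · intro u v hu hv; simp [hu, hv]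
  · intro u hu; simp [hu]

variable (p : ℕ)

/-- Exponents of the `r`-th coordinate of the image of a word. -/
noncomputable def ee (u : Monoid.Coprod G (FreeGroup (Fin n))) (r : Γ) : (Fin n × Γ) →₀ ZMod p :=
  Multiplicative.toAdd (expHom (ZMod p) N (Fin n × Γ) ((Psi π hπ t ht b u).left r))

theorem ee_mul (u v : Monoid.Coprod G (FreeGroup (Fin n))) (r : Γ) :
    ee π hπ t ht b p (u * v) r =
      ee π hπ t ht b p u r + ee π hπ t ht b p v (r * evalHom π b u) := by
  simp [ee, Psi_right, map_mul]

theorem ee_inv (u : Monoid.Coprod G (FreeGroup (Fin n))) (r : Γ) :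
    ee π hπ t ht b p u⁻¹ r = -ee π hπ t ht b p u (r * (evalHom π b u)⁻¹) := by
  simp [ee, Psi_right, map_inv]
  rfl

theorem ee_inl (g : G) (r : Γ) : ee π hπ t ht b p (Coprod.inl g) r = 0 := by
  simp [ee]

theorem ee_of (j : Fin n) (r : Γ) :
    ee π hπ t ht b p (Coprod.inr (FreeGroup.of j)) r = Finsupp.single (j, r) 1 := by
  simp [ee]

variable {T : Type v} [Group T] (τ : Γ →* T)

/-- Push-forward of the exponents along `τ : Γ → T`. -/
noncomputable def eeT (u : Monoid.Coprod G (FreeGroup (Fin n))) (r : Γ) : (Fin n × T) →₀ ZMod p :=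
  Finsupp.mapDomain (Prod.map id τ) (ee π hπ t ht b p u r)

theorem eeT_mul (u v : Monoid.Coprod G (FreeGroup (Fin n))) (r : Γ) :
    eeT π hπ t ht b p τ (u * v) r =
      eeT π hπ t ht b p τ u r + eeT π hπ t ht b p τ v (r * evalHom π b u) := by
  simp [eeT, ee_mul, Finsupp.mapDomain_add]

theorem eeT_inv (u : Monoid.Coprod G (FreeGroup (Fin n))) (r : Γ) :
    eeT π hπ t ht b p τ u⁻¹ r = -eeT π hπ t ht b p τ u (r * (evalHom π b u)⁻¹) := by
  simp only [eeT, ee_inv]
  rw [← Finsupp.lmapDomain_apply (ZMod p) (ZMod p), map_neg]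
  rfl

theorem eeT_inl (g : G) (r : Γ) : eeT π hπ t ht b p τ (Coprod.inl g) r = 0 := by
  simp [eeT, ee_inl]

theorem eeT_of (j : Fin n) (r : Γ) :
    eeT π hπ t ht b p τ (Coprod.inr (FreeGroup.of j)) r = Finsupp.single (j, τ r) 1 := by
  simp [eeT, ee_of, Finsupp.mapDomain_single]

/-- Equivariance of the Fox vector. -/
theorem eeT_translate (u : Monoid.Coprod G (FreeGroup (Fin n))) :
    ∀ (r : Γ) (j : Fin n) (s : T),
      eeT π hπ t ht b p τ u r (j, s) = eeT π hπ t ht b p τ u 1 (j, (τ r)⁻¹ * s) := by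
  classical
  refine coprod_free_induction (P := fun u => ∀ (r : Γ) (j : Fin n) (s : T),
      eeT π hπ t ht b p τ u r (j, s) = eeT π hπ t ht b p τ u 1 (j, (τ r)⁻¹ * s)) ?_ ?_ ?_ ?_ u
  · intro g r j s
    simp [eeT_inl]
  · intro i r j s
    simp only [eeT_of, map_one, Finsupp.single_apply, Prod.mk.injEq]
    have h : (τ r = s) ↔ (1 = (τ r)⁻¹ * s) := by
      constructor
      · rintro rfl; simp
      · intro h1
        have := congrArg (fun x => τ r * x) h1
        simpa using this
    simp only [h]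
  · intro u v hu hv r j s
    simp only [eeT_mul, one_mul, Finsupp.add_apply]
    rw [hu r j s, hv _ j s, hv (evalHom π b u) j ((τ r)⁻¹ * s)]
    simp [mul_assoc]
  · intro u hu r j s
    simp only [eeT_inv, one_mul, Finsupp.neg_apply]
    rw [hu _ j s, hu _ j ((τ r)⁻¹ * s)]
    simp [mul_assoc]

/-- The sum over `T` of the Fox vector is the exponent sum. -/
theorem eeT_total [Fintype T] (u : Monoid.Coprod G (FreeGroup (Fin n))) :
    ∀ (r : Γ) (j : Fin n),
      ∑ s, eeT π hπ t ht b p τ u r (j, s) =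
        Multiplicative.toAdd (expHom (ZMod p) G (Fin n) u) j := by
  classical
  refine coprod_free_induction (P := fun u => ∀ (r : Γ) (j : Fin n),
      ∑ s, eeT π hπ t ht b p τ u r (j, s) =
        Multiplicative.toAdd (expHom (ZMod p) G (Fin n) u) j) ?_ ?_ ?_ ?_ u
  · intro g r j
    simp [eeT_inl]
  · intro i r j
    simp only [eeT_of, expHom_of, toAdd_ofAdd, Finsupp.single_apply, Prod.mk.injEq]
    by_cases hij : i = j
    · subst hij
      simp
    · simp [hij]
  · intro u v hu hv r j
    simp only [eeT_mul, Finsupp.add_apply, Finset.sum_add_distrib, hu r j, hv _ j, map_mul,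
      toAdd_mul]
  · intro u hu r j
    simp only [eeT_inv, Finsupp.neg_apply, Finset.sum_neg_distrib, hu _ j, map_inv, toAdd_inv]

end Lift

end Vale.Agent.Lib.P174
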